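import Vale.Agent.P067.Alld.Defs
import Vale.Agent.P067.Sparse.Chains

/-!
P067, module II: lattices in `ℤ →₀ F_p` (the basis `e_k` of Laurent polynomial column vectors, with
`t e_k = e_(k+n)`), their indices and good lattices.
-/

namespace Vale.Agent.P067.Alld.Bld

open Finset Module

variable (p : ℕ) [Fact p.Prime]

/-- The space. -/
abbrev LV : Type := ℤ →₀ ZMod p

/-- Multiplication by the power of `t` that moves indices by `c`. -/
noncomputable def sh (c : ℤ) : LV p →ₗ[ZMod p] LV p :=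
  Finsupp.lmapDomain (ZMod p) (ZMod p) (· + c)

/-- The span of the `e_k`, `k ≤ a`. -/
noncomputable def lo (a : ℤ) : Submodule (ZMod p) (LV p) :=
  Finsupp.supported (ZMod p) (ZMod p) {k | k ≤ a}

/-- The span of the `e_k`, `a < k`. -/
noncomputable def hi (a : ℤ) : Submodule (ZMod p) (LV p) :=
  Finsupp.supported (ZMod p) (ZMod p) {k | a < k}

/-- A lattice for `n`. -/
def IsLat (n : ℕ) (W : Submodule (ZMod p) (LV p)) : Prop :=
  W.map (sh p (-(n : ℤ))) ≤ W ∧ ∃ a b, lo p a ≤ W ∧ W ≤ lo p b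

/-- The index: `dim (W ⊓ hi a) = j - a` for a bound `lo a ≤ W`. -/
def HasIdx (W : Submodule (ZMod p) (LV p)) (j : ℤ) : Prop :=
  ∃ a : ℤ, lo p a ≤ W ∧ (finrank (ZMod p) (W ⊓ hi p a : Submodule (ZMod p) (LV p)) : ℤ) = j - a

/-- A vertex of the building: a lattice of index in `[0, n)`. -/
abbrev BVert (n : ℕ) : Type :=
  {W : Submodule (ZMod p) (LV p) // IsLat p n W ∧ ∃ j : ℕ, j < n ∧ HasIdx p W j}

/-- Good: complementary to `hi` of its index. -/
def Good (n : ℕ) (W : BVert p n) : Prop :=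
  ∃ j : ℕ, j < n ∧ HasIdx p W.1 j ∧ IsCompl W.1 (hi p j)

variable {p} {n : ℕ}

/-- Adjacency of lattice classes. -/
def Rel (W W' : BVert p n) : Prop :=
  (W.1 ≤ W'.1 ∧ W'.1 ≤ W.1.map (sh p n)) ∨ (W'.1 ≤ W.1 ∧ W.1 ≤ W'.1.map (sh p n))

/-- A simplex of the building. -/
def BSimp (σ : Finset (BVert p n)) : Prop := ∀ W ∈ σ, ∀ W' ∈ σ, Rel W W'

/-- A simplex whose vertices are all good. -/
def GSimp (σ : Finset (BVert p n)) : Prop := BSimp σ ∧ ∀ W ∈ σ, Good p n W

end Vale.Agent.P067.Alld.Bld
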