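import Vale.Agent.P067.Alld.Bld.Defs

/-!
P067, module II: the statements.
-/

namespace Vale.Agent.P067.Alld.Bld

open Finset Module

/-- II-a: the coset complex of `Γ` is the complex of good lattices. -/
def ModelStmt : Prop :=
  ∀ (n : ℕ), 3 ≤ n → ∀ (p : ℕ) [Fact p.Prime], ∃ Φ : Vert (hInf p n) → BVert p n,
    Function.Injective Φ ∧ (∀ W, Good p n W ↔ ∃ v, Φ v = W) ∧
      ∀ (_ : DecidableEq (BVert p n)) (σ : Finset (Vert (hInf p n))),
        IsFace (hInf p n) σ ↔ GSimp (σ.image Φ)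

/-- II-b: the building is acyclic. -/
def BuildingStmt : Prop :=
  ∀ (n : ℕ), 1 ≤ n → ∀ (p : ℕ) [Fact p.Prime] (_ : DecidableEq (BVert p n)) (i : ℕ)
    (z : Sparse.Ch (BVert p n)),
    Sparse.On (fun σ => BSimp σ ∧ σ.card = i) z → Sparse.bd z = 0 →
      ∃ y : Sparse.Ch (BVert p n),
        Sparse.On (fun σ => BSimp σ ∧ σ.card = i + 1) y ∧ Sparse.bd y = z

section Greedy

variable {n : ℕ}

/-- The tuple of the neighbour with lead set `R`. -/
def shiftX (x : Fin n → ℤ) (R : Finset (Fin n)) (c : Fin n) : ℤ :=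
  if c ∈ R then x c + n - R.card else x c - R.card

/-- The height, compared lexicographically. -/
def heightX (x : Fin n → ℤ) (j : ℕ) : ℕ ×ₗ ℕ ×ₗ ℕ :=
  toLex ((∑ c, (x c ^ 2).toNat), toLex ((∑ c, (x c ^ 4).toNat), j))

/-- The height drops on going to the neighbour with lead set `R`. -/
def Drop (x : Fin n → ℤ) (j : ℕ) (R : Finset (Fin n)) : Prop :=
  heightX (shiftX x R) ((j + R.card) % n) < heightX x j

end Greedy

/-- II-c: along a greedy chain the height stays below. -/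
def GreedyStmt : Prop :=
  ∀ (n j : ℕ) (x : Fin n → ℤ), j < n →
    (∀ a b, (n : ℤ) ∣ x a - x b → a = b) →
    ∑ c, x c = ∑ k ∈ Finset.Icc (-(n : ℤ) + 1) 0, k →
    (∃ c, x c ∉ Finset.Icc (-(n : ℤ) + 1) 0) →
    ∀ R R₀ S : Finset (Fin n),
      (Drop x j R ∨ R = ∅ ∨ R = univ) → (Drop x j R₀ ∨ R₀ = ∅ ∨ R₀ = univ) →
      R ⊂ S → S ⊂ R₀ → (∀ a ∈ S \ R, ∀ b ∈ R₀ \ S, x a < x b) → Drop x j S

section Fill

variable {K V : Type} [Field K] [AddCommGroup V] [Module K V]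

/-- The lead set of `W` for the flag `E`; higher index = more general position. -/
noncomputable def leads (E : ℕ → Submodule K V) (n : ℕ) (W : Submodule K V) : Finset ℕ := by
  classical
  exact (range n).filter fun i =>
    finrank K (W ⊓ E i : Submodule K V) < finrank K (W ⊓ E (i + 1) : Submodule K V)

/-- A chain of subspaces with allowed lead sets. -/
def ASimp (E : ℕ → Submodule K V) (n : ℕ) (A : Finset ℕ → Prop) (σ : Finset (Submodule K V)) :
    Prop :=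
  (∀ W ∈ σ, W ≤ E n ∧ W ≠ ⊥ ∧ W ≠ E n ∧ A (leads E n W)) ∧
    ∀ W ∈ σ, ∀ W' ∈ σ, W ≤ W' ∨ W' ≤ W

/-- Adding largest indices first stays allowed. -/
def IsGreedy (n : ℕ) (A : Finset ℕ → Prop) : Prop :=
  ∀ R R₀ S : Finset ℕ, R₀ ⊆ range n → (A R ∨ R = ∅ ∨ R = range n) →
    (A R₀ ∨ R₀ = ∅ ∨ R₀ = range n) → R ⊂ S → S ⊂ R₀ →
    (∀ a ∈ S \ R, ∀ b ∈ R₀ \ S, b < a) → A S

end Fill

/-- II-d: the complex of subspaces with allowed lead sets is acyclic in low degrees. -/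
def FillStmt : Prop :=
  ∀ d : ℕ, ∃ n₀ : ℕ, ∀ n, n₀ ≤ n → ∃ q₀ : ℕ, ∀ (K V : Type) [Field K] [AddCommGroup V]
    [Module K V] [FiniteDimensional K V] (_ : DecidableEq (Submodule K V))
    (E : ℕ → Submodule K V), Monotone E → (∀ j ≤ n, finrank K (E j) = j) → q₀ < Nat.card K →
    ∀ A : Finset ℕ → Prop, IsGreedy n A → ∀ i ≤ d, ∀ z : Sparse.Ch (Submodule K V),
      Sparse.On (fun σ => ASimp E n A σ ∧ σ.card = i) z → Sparse.bd z = 0 →
      ∃ y : Sparse.Ch (Submodule K V),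
        Sparse.On (fun σ => ASimp E n A σ ∧ σ.card = i + 1) y ∧ Sparse.bd y = z

end Vale.Agent.P067.Alld.Bld
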